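import Vale.Agent.P281.H399.TL.VolS
import Vale.Agent.P281.H64.TK.Glob

/-!
# P281, project T-L, block B2 (helper399): the fibres over `Y ∖ S` have the same volume
-/

open Set Filter Metric MeasureTheory Vale.Agent.P281 Vale.Agent.P281.H713 Vale.Agent.P272.K
open scoped Topology ContDiff Manifold ComplexConjugate

set_option linter.unusedSectionVars false

noncomputable section

namespace Vale.Agent.P281.H399.TL

open Vale.Agent.P281.H64.TK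
open H603.K H864.K
open Vale.Agent.P281.H969.TL (volS VolSStmt VolFStmt VolStmt)

section
variable {d : ℕ} {E Γ : Type} [TopologicalSpace E] [Group Γ] [MulAction Γ E]
variable {E' Γ' : Type} [TopologicalSpace E'] [Group Γ'] [MulAction Γ' E']
  {S' : Sheets d E' Γ'} {τ : E ≃ₜ E'} {ρ : Γ ≃* Γ'} {hτ : ∀ γ e, τ (γ • e) = ρ γ • τ e}

theorem volS_pull (w : Fin S'.N → Cm d → Matrix (Fin d) (Fin d) ℂ) :
    volS (S'.pull τ ρ hτ) w = volS S' w := by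
  unfold volS
  show ∑ i : Fin S'.N, _ = ∑ i : Fin S'.N, _
  refine Finset.sum_congr rfl fun i _ => ?_
  rw [P_pull i]

theorem volS_congr [ContinuousConstSMul Γ E] (S : Sheets d E Γ)
    {w w' : Fin S.N → Cm d → Matrix (Fin d) (Fin d) ℂ}
    (h : ∀ i, ∀ z ∈ ball (0 : Cm d) 3, w i z = w' i z) : volS S w = volS S w' := by
  unfold volS
  refine Finset.sum_congr rfl fun i _ => ?_
  refine setIntegral_congr_fun (meas_P S i) fun z hz => ?_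
  simp only [h i z (P_subset3 S i hz)]

end

section
variable {p d : ℕ} {Z Y : Type} [TopologicalSpace Z] [T2Space Z] [ChartedSpace (Cm (p + d)) Z]
  [IsManifold 𝓘(ℂ, Cm (p + d)) ω Z] [TopologicalSpace Y] [T2Space Y] [ChartedSpace (Cm p) Y]
  [IsManifold 𝓘(ℂ, Cm p) ω Y]

/-- two models at the same point have the same volume -/
theorem vol_two (I : Inputs) (hd : 0 < d) {f : Z → Y}
    (hf : ContMDiff 𝓘(ℂ, Cm (p + d)) 𝓘(ℂ, Cm p) ω f)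
    {w : Chart (p + d) Z → Cm (p + d) → Matrix (Fin (p + d)) (Fin (p + d)) ℂ} (hw : IsKahler w)
    {E Γ : Type} [TopologicalSpace E] [T2Space E] [SimplyConnectedSpace E]
    [Group Γ] [MulAction Γ E] [ContinuousConstSMul Γ E] {𝓕 : Fam p d E Γ}
    {q : Cm p → E → Z} {χ : OpenPartialHomeomorph Y (Cm p)}
    {E' Γ' : Type} [TopologicalSpace E'] [T2Space E'] [SimplyConnectedSpace E']
    [Group Γ'] [MulAction Γ' E'] [ContinuousConstSMul Γ' E'] {𝓕' : Fam p d E' Γ'}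
    {q' : Cm p → E' → Z} {χ' : OpenPartialHomeomorph Y (Cm p)}
    (hM : Model (n := p + d) f 𝓕 χ q) (hM' : Model (n := p + d) f 𝓕' χ' q')
    {W : Fin 𝓕.N → Cm p × Cm d → Matrix (Fin p ⊕ Fin d) (Fin p ⊕ Fin d) ℂ}
    {W' : Fin 𝓕'.N → Cm p × Cm d → Matrix (Fin p ⊕ Fin d) (Fin p ⊕ Fin d) ℂ}
    (hW : IsPull w 𝓕 q W) (hW' : IsPull w 𝓕' q' W') (hK : KFam 𝓕 W) (hK' : KFam 𝓕' W')
    {t t' : Cm p} (ht : t ∈ 𝓕.T) (ht' : t' ∈ 𝓕'.T) (hy : χ.symm t = χ'.symm t') :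
    volS (𝓕'.at t' ht') (fibW W' t') = volS (𝓕.at t ht) (fibW W t) := by
  obtain ⟨τ, ρ, hτ, -, hc, hm⟩ := compareK I hd hf hw hM hM' hW hW' ht ht' hy
  have h1 := volS_stmt d E Γ (𝓕.at t ht) ((𝓕'.at t' ht').pull τ ρ hτ) (fibW W t) (fibW W' t') hd
    (kah_fib hK ht) (kah_pull (kah_fib hK' ht')) hc hm
  rw [← h1]
  exact (volS_pull (τ := τ) (ρ := ρ) (hτ := hτ) _).symm

/-- some model at `y` has volume `v` -/
def VP (f : Z → Y) (w : Chart (p + d) Z → Cm (p + d) → Matrix (Fin (p + d)) (Fin (p + d)) ℂ)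
    (v : ℝ) (y : Y) : Prop :=
  ∃ (E Γ : Type) (_ : TopologicalSpace E) (_ : T2Space E) (_ : SimplyConnectedSpace E)
    (_ : Group Γ) (_ : MulAction Γ E) (_ : ContinuousConstSMul Γ E) (𝓕 : Fam p d E Γ)
    (q : Cm p → E → Z) (χ : OpenPartialHomeomorph Y (Cm p)) (t : Cm p) (ht : t ∈ 𝓕.T)
    (W : Fin 𝓕.N → Cm p × Cm d → Matrix (Fin p ⊕ Fin d) (Fin p ⊕ Fin d) ℂ),
      Model (n := p + d) f 𝓕 χ q ∧ χ.symm t = y ∧ IsPull w 𝓕 q W ∧ KFam 𝓕 W ∧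
      volS (𝓕.at t ht) (fibW W t) = v

theorem VP.all (I : Inputs) (hd : 0 < d) {f : Z → Y}
    (hf : ContMDiff 𝓘(ℂ, Cm (p + d)) 𝓘(ℂ, Cm p) ω f)
    {w : Chart (p + d) Z → Cm (p + d) → Matrix (Fin (p + d)) (Fin (p + d)) ℂ} (hw : IsKahler w)
    {v : ℝ} {y : Y} (h : VP (d := d) f w v y)
    {E' Γ' : Type} [TopologicalSpace E'] [T2Space E'] [SimplyConnectedSpace E']
    [Group Γ'] [MulAction Γ' E'] [ContinuousConstSMul Γ' E'] {𝓕' : Fam p d E' Γ'}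
    {q' : Cm p → E' → Z} {χ' : OpenPartialHomeomorph Y (Cm p)}
    (M' : Model (n := p + d) f 𝓕' χ' q')
    {W' : Fin 𝓕'.N → Cm p × Cm d → Matrix (Fin p ⊕ Fin d) (Fin p ⊕ Fin d) ℂ}
    (hW' : IsPull w 𝓕' q' W') (hK' : KFam 𝓕' W')
    {t' : Cm p} (ht' : t' ∈ 𝓕'.T) (hy : χ'.symm t' = y) :
    volS (𝓕'.at t' ht') (fibW W' t') = v := by
  obtain ⟨E, Γ, _, _, _, _, _, _, 𝓕, q, χ, t, ht, W, hM, hy', hW, hK, hv⟩ := h
  rw [← hv]
  exact vol_two I hd hf hw hM M' hW hW' hK hK' ht ht' (by rw [hy, hy'])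

/-- the pulled back metric is unique -/
theorem isPull_unique {f : Z → Y}
    {w : Chart (p + d) Z → Cm (p + d) → Matrix (Fin (p + d)) (Fin (p + d)) ℂ}
    {E Γ : Type} [TopologicalSpace E] [Group Γ] [MulAction Γ E] {𝓕 : Fam p d E Γ}
    {q : Cm p → E → Z}
    {W W' : Fin 𝓕.N → Cm p × Cm d → Matrix (Fin p ⊕ Fin d) (Fin p ⊕ Fin d) ℂ}
    (hW : IsPull w 𝓕 q W) (hW' : IsPull w 𝓕 q W') (i : Fin 𝓕.N) {t : Cm p} (ht : t ∈ 𝓕.T)
    {z : Cm d} (hz : z ∈ ball (0 : Cm d) 3) : W i (t, z) = W' i (t, z) := by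
  have he : At (chartAt (Cm (p + d)) (q t (𝓕.σ i t z))) (q t (𝓕.σ i t z)) :=
    ⟨chart_mem_atlas _ _, mem_chart_source _ _⟩
  rw [hW i t ht z hz _ he, hW' i t ht z hz _ he]

/-- the volume is the same everywhere -/
theorem glob_vol (I : Inputs) (hF : VolFStmt) (hd : 0 < d) {f : Z → Y}
    (hf : ContMDiff 𝓘(ℂ, Cm (p + d)) 𝓘(ℂ, Cm p) ω f)
    {w : Chart (p + d) Z → Cm (p + d) → Matrix (Fin (p + d)) (Fin (p + d)) ℂ} (hw : IsKahler w)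
    {S : Set Y} (hP : H64.IsProperFibration (n := p + d) (p := p) f S) (hconn : IsPreconnected Sᶜ)
    {y₁ : Y} (hy₁ : y₁ ∉ S) : ∃ v : ℝ, ∀ y ∉ S, VP (d := d) f w v y := by
  have hAB := I.ab p d Z Y f S hd hf hP
  have hS := hP.isClosed
  obtain ⟨E₁, Γ₁, _, _, _, _, _, _, 𝓕₁, q₁, hM₁, ht₁, -⟩ := hAB y₁ hy₁
  obtain ⟨W₁, hW₁, hK₁⟩ := I.w p d Z Y f w E₁ Γ₁ 𝓕₁ q₁ _ hf hM₁ hw
  set v : ℝ := volS (𝓕₁.at _ ht₁) (fibW W₁ (chartAt (Cm p) y₁ y₁)) with hv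
  have hP₁ : VP (d := d) f w v y₁ := ⟨E₁, Γ₁, inferInstance, inferInstance,
    inferInstance, inferInstance, inferInstance, inferInstance, 𝓕₁, q₁, _, _, ht₁, W₁, hM₁,
    (chartAt (Cm p) y₁).left_inv (mem_chart_source _ _), hW₁, hK₁, rfl⟩
  have key : ∀ y₀ ∉ S, ∃ U ∈ 𝓝 y₀, ∀ y ∈ U, ∀ y' ∈ U, VP (d := d) f w v y →
      VP (d := d) f w v y' := by
    intro y₀ hy₀
    obtain ⟨E, Γ, _, _, _, _, _, _, 𝓕, q, hM, ht, -⟩ := hAB y₀ hy₀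
    obtain ⟨W, hW, hK⟩ := I.w p d Z Y f w E Γ 𝓕 q _ hf hM hw
    set χ := chartAt (Cm p) y₀ with hχ
    have hU : χ.source ∩ χ ⁻¹' 𝓕.T ∈ 𝓝 y₀ :=
      (χ.isOpen_inter_preimage 𝓕.isOpen).mem_nhds ⟨mem_chart_source _ _, ht⟩
    refine ⟨_, hU, fun y hy y' hy' h => ?_⟩
    have h1 := h.all I hd hf hw hM hW hK hy.2 (χ.left_inv hy.1)
    have h2 := hF p d E Γ 𝓕 W hd hK (χ y) hy.2 (χ y') hy'.2
    exact ⟨E, Γ, inferInstance, inferInstance, inferInstance, inferInstance, inferInstance,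
      inferInstance, 𝓕, q, χ, χ y', hy'.2, W, hM, χ.left_inv hy'.1, hW, hK, by
        rw [← h2, h1]⟩
  refine ⟨v, ?_⟩
  set A : Set Y := {y | y ∉ S ∧ VP (d := d) f w v y} with hA
  set A' : Set Y := {y | y ∉ S ∧ ¬ VP (d := d) f w v y} with hA'
  have hSo : IsOpen Sᶜ := hS.isOpen_compl
  have hAo : IsOpen A := by
    rw [isOpen_iff_mem_nhds]
    rintro y ⟨hy, hP⟩
    obtain ⟨U, hU, hUP⟩ := key y hy
    filter_upwards [hU, hSo.mem_nhds hy] with y' a b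
    exact ⟨b, hUP y (mem_of_mem_nhds hU) y' a hP⟩
  have hAo' : IsOpen A' := by
    rw [isOpen_iff_mem_nhds]
    rintro y ⟨hy, hP⟩
    obtain ⟨U, hU, hUP⟩ := key y hy
    filter_upwards [hU, hSo.mem_nhds hy] with y' a b
    exact ⟨b, fun h => hP (hUP y' a y (mem_of_mem_nhds hU) h)⟩
  intro y hy
  by_contra hcon
  obtain ⟨x, -, hx1, hx2⟩ := hconn A A' hAo hAo' (fun x hx => by
    by_cases h : VP (d := d) f w v x
    · exact Or.inl ⟨hx, h⟩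
    · exact Or.inr ⟨hx, h⟩) ⟨y₁, hy₁, hy₁, hP₁⟩ ⟨y, hy, hy, hcon⟩
  exact hx2.2 hx1.2

end

/-- **B2.** -/
theorem volStmt_of (I : Inputs) (hF : VolFStmt) : VolStmt := by
  intro p d Z Y _ _ _ _ _ _ _ _ f S w hd hf hS hP hconn hw
  by_cases hne : ∃ y₁, y₁ ∉ S
  · obtain ⟨y₁, hy₁⟩ := hne
    obtain ⟨v, hv⟩ := glob_vol I hF hd hf hw hP hconn hy₁
    refine ⟨v, ?_⟩
    intro E Γ _ _ _ _ _ _ 𝓕 q χ W hM hW t ht hy
    obtain ⟨W', hW', hK'⟩ := I.w p d Z Y f w E Γ 𝓕 q _ hf hM hw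
    have h1 := (hv _ hy).all I hd hf hw hM hW' hK' ht rfl
    rw [← h1]
    refine volS_congr (𝓕.at t ht) fun i z hz => ?_
    have h2 := isPull_unique (f := f) hW hW' i ht hz
    unfold fibW
    rw [h2]
  · refine ⟨0, ?_⟩
    intro E Γ _ _ _ _ _ _ 𝓕 q χ W hM hW t ht hy
    exact absurd ⟨_, hy⟩ hne

end Vale.Agent.P281.H399.TL
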