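import Vale.Agent.P281.H969.TL.Spec
import Vale.Agent.P281.H864.K.E1

/-!
# P281, project T-L, block B2b (helper399): the volume does not depend on the sheets
-/

open Set Filter Metric MeasureTheory
open scoped Topology ContDiff ComplexConjugate ENNReal ComplexOrder

set_option linter.unusedSectionVars false
set_option linter.unusedVariables false

noncomputable section

namespace Vale.Agent.P281.H399.TL

open Vale.Agent.P281.H64.TK Vale.Agent.P272.K Matrix
open Vale.Agent.P281.H864.K
open Vale.Agent.P281.H969.TL (volS VolSStmt)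

variable {d : ℕ}

theorem det_re_change (W J : Matrix (Fin d) (Fin d) ℂ) :
    (J.transpose * W * J.map conj).det.re = ‖J.det‖ ^ 2 * W.det.re := by
  have h1 : (J.map conj).det = conj J.det := (RingHom.map_det (starRingEnd ℂ) J).symm
  have h2 : (J.transpose * W * J.map conj).det = ((‖J.det‖ ^ 2 : ℝ) : ℂ) * W.det := by
    rw [Matrix.det_mul, Matrix.det_mul, Matrix.det_transpose, h1]
    have h7 : ((‖J.det‖ ^ 2 : ℝ) : ℂ) = J.det * conj J.det := by
      rw [Complex.mul_conj, Complex.normSq_eq_norm_sq]
    rw [h7]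
    ring
  rw [h2, Complex.re_ofReal_mul]

theorem continuousOn_det {A : Set (Cm d)} {W : Cm d → Matrix (Fin d) (Fin d) ℂ}
    (hc : ∀ j k, ContinuousOn (fun z => W z j k) A) : ContinuousOn (fun z => (W z).det.re) A := by
  have h1 : ContinuousOn W A := continuousOn_pi.2 fun j => continuousOn_pi.2 fun k => hc j k
  have h0 : Continuous fun M : Matrix (Fin d) (Fin d) ℂ => M.det := continuous_id.matrix_det
  exact Complex.continuous_re.comp_continuousOn (h0.comp_continuousOn h1)

/-- **B2b.** -/
theorem volS_stmt : VolSStmt := by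
  intro d E Γ _ _ _ _ _ _ S S' w w' hd hw hw' hS hm
  unfold volS
  refine (sum_compat (holCompat_compat hS)
    (D := fun i z => (w i z).det.re) (D' := fun i z => (w' i z).det.re)
    (fun i => integrableOn_P S i (continuousOn_det fun j k => (hw.smooth i j k).continuousOn))
    (fun i => integrableOn_P S' i (continuousOn_det fun j k => (hw'.smooth i j k).continuousOn))
    ?_).symm
  intro i j z hz v hv γ ψ he hψ hψz hdet hev
  obtain ⟨θ, h1, h2, h3, h4⟩ := hS i j z hz v hv γ he
  have hψθ : ψ =ᶠ[𝓝 z] θ := by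
    have a1 : ∀ᶠ u in 𝓝 z, ψ u ∈ ball (0 : Cm d) 3 :=
      hψ.continuousAt.eventually (isOpen_ball.mem_nhds (by rwa [hψz]))
    have a2 : ∀ᶠ u in 𝓝 z, θ u ∈ ball (0 : Cm d) 3 :=
      h1.continuousAt.eventually (isOpen_ball.mem_nhds (by rwa [h2]))
    filter_upwards [a1, a2, hev, h4] with u b1 b2 b3 b4
    exact (uniq (S := S') (i := j) (γ := γ) (δ := γ) b1 b2 (b3.symm.trans b4)).2
  simp only [smul_eq_mul]
  rw [hψθ.fderiv_eq, det_fderiv_real h1.differentiableAt, hm i j z hz v hv γ θ h1 h2 h4]
  exact det_re_change _ _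

end Vale.Agent.P281.H399.TL
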